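import Crest.Agent.N255.Sg.Fu
import Crest.Agent.N255.En.Vt

/-!
# Row 255 (helper83): wall chains and vertex chains of an end structure
-/

set_option autoImplicit false
open Set
open scoped Pointwise

noncomputable section

namespace Crest.Agent.N255.Vc

open Tp Wn En Pt Lv Ma

section gen
variable {ι S : Type} [DecidableEq ι] [MulAction (FreeGroup ι) S] {w : En.Wl ι S}
  {F : Subgroup (FreeGroup ι)} {X : Type} [TopologicalSpace X] [MulAction F X] (N : Lev w F X)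
  {k : Type} [Field k] {d : ℕ} {O : Ori k (d + 1) X} {e : Ed ι} {a b ε R R' R₀ : ℝ}
  {σ : Ch k (d + 1) X} {𝒱 : Set (Set X)}

/-- the boundary of a small wall is a far chain with labels on the wall -/
theorem bd_Lb (h : Wr O N.cv (N.s e) N.r a b R σ) (hs : σ ∈ (Sm N.cv).ch k (d + 1)) (hB : N.Big ε R')
    (h0 : R₀ ≤ R') (h1 : R' ≤ R) (ha : ε ≤ a) (hb : b ≤ 1 - ε) :
    bd k σ ∈ (N.Lb R₀ (w.T e)).ch k d :=
  Sb.ch_mono (hB.fw h0 ha hb) (Sml.mem_inf (ch_mono (fw_mono le_rfl le_rfl h1)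
    (h.mem N.cv_open N.cv_cover).2) (Sb.bd_mem hs))

theorem mem_Sb (h : Wr O N.cv (N.s e) N.r a b R σ) (hs : σ ∈ (Sm N.cv).ch k (d + 1)) :
    σ ∈ (N.Sb (win (N.s e) a b)).ch k (d + 1) ∧ bd k σ ∈ (N.Sb (fw (N.s e) N.r a b R)).ch k d :=
  ⟨Sml.mem_inf (h.mem N.cv_open N.cv_cover).1 hs,
    Sml.mem_inf (h.mem N.cv_open N.cv_cover).2 (Sb.bd_mem hs)⟩

/-- translates of walls -/
theorem wr_tr [ContinuousConstSMul F X] (hO : OInv F O) (f : F) (h : Wr O N.cv (N.s e) N.r a b R σ) :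
    Wr O N.cv (N.s (f.1 • e)) N.r a b R (push k (Uc.tr f) σ) :=
  wr_smul hO f (N.cv_smul f) (N.s_smul f e) (N.r_smul f) h

theorem tr_sm [ContinuousConstSMul F X] (f : F) {n : ℕ} {c : Ch k n X} (h : c ∈ (Sm N.cv).ch k n) :
    push k (Uc.tr f) c ∈ (Sm N.cv).ch k n :=
  push_sm (fun U hU => ⟨_, N.cv_smul f U hU, fun _ hx => smul_mem_smul_set hx⟩) h

variable [T2Space X]

/-- the wall of the reversed edge -/
theorem wr_rv (h : Wr O N.cv (N.s e) N.r a b R σ) :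
    Wr O N.cv (N.s (rev e)) N.r (1 - b) (1 - a) R (-σ) :=
  wr_neg N.cv_open N.cv_cover (N.s_rev e) h

theorem exists_wall (O : Ori k (d + 1) X) (e : Ed ι) (hab : a < b) (R : ℝ) (hV : ∀ U ∈ 𝒱, IsOpen U)
    (hV' : univ ⊆ ⋃₀ 𝒱) :
    ∃ σ ∈ ((Sm N.cv).inf (Sm 𝒱)).ch k (d + 1), Wr O N.cv (N.s e) N.r a b R σ :=
  exists_wr_sm N.cv_open N.cv_cover O hab (box_cpt N e a b R) hV hV'

omit [T2Space X] in
/-- edges pointing away from each other have disjoint outer sides -/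
theorem sep {e e' : Ed ι} (h : Bey (rev e) e') (ha : 0 ≤ a) (hb : 0 ≤ b) (x : X) :
    N.s e x ≤ a ∨ N.s e' x ≤ b := by
  have h1 := N.s_bey _ _ x h
  rw [N.s_rev] at h1
  by_contra hn
  rw [not_or, not_le, not_le] at hn
  linarith [hn.1, hn.2]

end gen

variable {S : Type} [MulAction F3 S] {w : En.Wl (Fin 3) S} {F : Subgroup F3} {X : Type}
  [TopologicalSpace X] [MulAction F X] (N : Lev w F X) {k : Type} [Field k]
  {O : Ori k 3 X} {v : F3} {h t : Fin 3 → Bool} {e : Fin 3 → Ed (Fin 3)} {a b : Fin 3 → ℝ}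
  {ε C R R' R₀ : ℝ} {σ : Fin 3 → Ch k 3 X} {𝒱 : Set (Set X)}

/-- the vertex region up to the outer levels of the windows `(a j, b j)` of the oriented edges -/
def vreg (v : F3) (h t : Fin 3 → Bool) (a b : Fin 3 → ℝ) : Set X :=
  core (fun j => N.s (st v h j)) fun j => if t j then b j else 1 - a j

/-- the closed vertex region up to the inner levels of the windows -/
def vinn (v : F3) (h t : Fin 3 → Bool) (a b : Fin 3 → ℝ) : Set X :=
  Sg.inn (fun j => N.s (st v h j)) fun j => if t j then a j else 1 - b j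

theorem mem_vinn (he : ∀ j, e j = if t j then st v h j else rev (st v h j)) {x : X} :
    x ∈ vinn N v h t a b ↔ ∀ j, if t j then N.s (e j) x ≤ a j else b j ≤ N.s (e j) x := by
  refine forall_congr' fun j => ?_
  have := he j
  dsimp only
  split_ifs at this ⊢ <;> simp only [this, N.s_rev]
  constructor <;> intro <;> linarith

theorem isClosed_vinn : IsClosed (vinn N v h t a b) := by
  rw [vinn, Sg.inn, setOf_forall]
  exact isClosed_iInter fun j => isClosed_le (N.s _).continuous continuous_const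

theorem mem_vreg (he : ∀ j, e j = if t j then st v h j else rev (st v h j)) {x : X} :
    x ∈ vreg N v h t a b ↔ ∀ j, if t j then N.s (e j) x < b j else a j < N.s (e j) x := by
  refine forall_congr' fun j => ?_
  have := he j
  dsimp only
  split_ifs at this ⊢ <;> simp only [this, N.s_rev]
  constructor <;> intro <;> linarith

theorem isOpen_vreg : IsOpen (vreg N v h t a b) := isOpen_core

theorem isOpen_Dv : ∀ U ∈ N.Dv v h C, IsOpen U := by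
  rintro _ ⟨_, -, -, rfl⟩; exact isOpen_hi

theorem Dv_le (hC : ε ≤ C) : (Sm (N.Dv v h C)).Le (Sm (N.Dv v h ε)) :=
  Sm_le (by rintro _ ⟨e, h1, h2, rfl⟩; exact ⟨_, ⟨e, h1, h2, rfl⟩, hi_mono hC⟩)

/-- off a compact set the vertex region is far or deep -/
theorem core_cover {c : Fin 3 → ℝ} (hc : ∀ j, c j ≤ 1) (hC : 0 ≤ C) (R : ℝ) :
    core (fun j => N.s (st v h j)) c \ {x | N.r x ≤ R ∧ ∀ e, Out v 1 e → N.s e x ≤ C} ⊆
      hi N.r R ∪ ⋃₀ N.Dv v h C := by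
  rintro x ⟨h1, h2⟩
  by_cases hr : R < N.r x
  · exact .inl hr
  simp only [mem_ofPred_eq, not_and, not_forall, not_le] at h2
  obtain ⟨e, h3, h4⟩ := h2 (not_lt.1 hr)
  exact .inr ⟨_, ⟨e, h3, bey_deep h3 fun j hj => by
    linarith [N.s_bey _ _ x hj, show N.s (st v h j) x < c j from h1 j, hc j], rfl⟩, h4⟩

variable [T2Space X]

/-- **the chains of a vertex**: `ρ` fills the region between the walls, the end `c` is far or deep and avoids
the compact set `Q` -/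
theorem exists_rc (he : ∀ j, e j = if t j then st v h j else rev (st v h j))
    (hw : ∀ j, Wr O N.cv (N.s (e j)) N.r (a j) (b j) R (σ j)) (ha : ∀ j, 0 ≤ a j) (hb : ∀ j, b j ≤ 1)
    (hV : ∀ U ∈ 𝒱, IsOpen U) (hV' : vreg N v h t a b ⊆ ⋃₀ 𝒱) (hs : ∀ j, σ j ∈ (Sm 𝒱).ch k 3)
    (hC : 0 ≤ C) {Q : Set X} (hQ : IsCompact Q) (hQR : ∀ x ∈ Q, N.r x ≤ R) :
    ∃ ρ ∈ ((On (vreg N v h t a b)).inf (Sm 𝒱)).ch k 4,
      ∃ c ∈ (((On (vreg N v h t a b \ Q)).inf ((On (hi N.r R)).sup (Sm (N.Dv v h C)))).inf (Sm 𝒱)).ch k 3,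
        (bd k ρ = c + ∑ j, if t j then σ j else -σ j) ∧ O.Fund (Q ∩ vinn N v h t a b) ρ := by
  have hw' : ∀ j, Wr O N.cv (N.s (st v h j)) N.r (if t j then a j else 1 - b j)
      (if t j then b j else 1 - a j) R (if t j then σ j else -σ j) := fun j => by
    have h1 := he j
    have h2 := hw j
    split_ifs at h1 ⊢
    · rwa [h1] at h2
    · simpa [h1] using wr_rv N h2
  have hd : ∀ i j, i ≠ j → ∀ x, N.s (st v h i) x ≤ (if t i then a i else 1 - b i) ∨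
      N.s (st v h j) x ≤ (if t j then a j else 1 - b j) := fun i j n =>
    sep N (st_bey v h n) (by split_ifs <;> linarith [ha i, hb i]) (by split_ifs <;> linarith [ha j, hb j])
  obtain ⟨ρ, h1, c, h2, e, f⟩ := Sg.vertexF N.cv_open N.cv_cover (R := fun _ => R)
    (𝒲 := insert (hi N.r R) (N.Dv v h C)) hw' hd ((N.cpt v 1 R C).union hQ) hV hV'
    (fun j => by split_ifs; exacts [hs j, neg_mem (hs j)])
    (by rintro _ (rfl | hU); exacts [isOpen_hi, isOpen_Dv N _ hU])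
    ((sdiff_subset_sdiff_right subset_union_left).trans
      ((core_cover N (fun j => by split_ifs <;> linarith [ha j, hb j]) hC R).trans (by rw [sUnion_insert])))
    fun j => ⟨_, mem_insert _ _, fun _ hx => hx.1⟩
  refine ⟨ρ, h1, c, fun τ hτ => ⟨⟨(h2 hτ).1.1.trans (union_subset
    (sdiff_subset_sdiff_right subset_union_right) (iUnion_subset fun j x hx =>
      ⟨win_core hw' hd j hx.2, fun q => (hQR x q).not_gt hx.1⟩)), ?_⟩, (h2 hτ).2⟩, e,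
    f.mono (hQ.inter_right (isClosed_vinn N)) (((N.cpt v 1 R C).union hQ).inter_right (isClosed_vinn N))
      (inter_subset_inter_left _ subset_union_right)⟩
  obtain ⟨_, rfl | hU, h3⟩ := (h2 hτ).1.2
  exacts [.inl h3, .inr ⟨_, hU, h3⟩]

omit [T2Space X] in
/-- far or deep small simplices of the vertex region belong to the end `Pv` -/
theorem le_Pv (hB : N.Big ε R') (h0 : R₀ ≤ R') (h1 : R' ≤ R) (ha : ∀ j, ε ≤ a j) (hb : ∀ j, b j ≤ 1 - ε)
    (hC : ε ≤ C) {A : Set X} (hA : A ⊆ vreg N v h t a b) (hV : (Sm 𝒱).Le (Sm N.cv)) :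
    (((On A).inf ((On (hi N.r R)).sup (Sm (N.Dv v h C)))).inf (Sm 𝒱)).Le (N.Pv v h ε R₀) := by
  rintro n τ ⟨⟨h2, h3 | h3⟩, h4⟩
  · refine .inl (hB.sb h0 (U := A ∩ hi N.r R) (fun _ hx => hi_mono h1 hx.2) (fun x hx => ?_) n
      ⟨subset_inter h2 h3, hV n h4⟩)
    refine En.Wl.mem_Mod3.2 fun j => hB.side _ x (h1.trans_lt hx.2) ((hA hx.1 j).trans_le ?_)
    dsimp only
    split_ifs <;> linarith [ha j, hb j]
  · exact .inr ⟨Dv_le N hC n h3, hV n h4⟩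

/-- the same in the input form of `Lev.vt` and `Vt.vertex` -/
theorem exists_vt (he : ∀ j, e j = if t j then st v h j else rev (st v h j))
    (hw : ∀ j, Wr O N.cv (N.s (e j)) N.r (a j) (b j) R (σ j)) (hε : 0 ≤ ε) (ha : ∀ j, ε ≤ a j)
    (hb : ∀ j, b j ≤ 1 - ε) (hB : N.Big ε R') (h0 : R₀ ≤ R') (h1 : R' ≤ R)
    (hV : ∀ U ∈ 𝒱, IsOpen U) (hV' : vreg N v h t a b ⊆ ⋃₀ 𝒱) (hVc : (Sm 𝒱).Le (Sm N.cv))
    (hs : ∀ j, σ j ∈ (Sm 𝒱).ch k 3) (hC : ε ≤ C) {Q : Set X} (hQ : IsCompact Q)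
    (hQR : ∀ x ∈ Q, N.r x ≤ R) :
    ∃ ρ ∈ ((On (vreg N v h t a b)).inf (Sm 𝒱)).ch k 4, ∃ c ∈ (N.Pv v h ε R₀).ch k 3,
      c ∈ (((On (vreg N v h t a b \ Q)).inf ((On (hi N.r R)).sup (Sm (N.Dv v h C)))).inf (Sm 𝒱)).ch k 3 ∧
        (bd k ρ = c + ∑ j, if t j then σ j else -σ j) ∧
        bd k c + ∑ j, (if t j then bd k (σ j) else -bd k (σ j)) = 0 ∧
        O.Fund (Q ∩ vinn N v h t a b) ρ := by
  obtain ⟨ρ, g1, c, g2, e, f⟩ := exists_rc N he hw (fun j => hε.trans (ha j)) (fun j => by linarith [hb j])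
    hV hV' hs (hε.trans hC) hQ hQR
  refine ⟨ρ, g1, c, Sb.ch_mono (le_Pv N hB h0 h1 ha hb hC sdiff_subset hVc) g2, g2, e, ?_, f⟩
  have := congrArg (bd k) e
  rw [bd_bd, map_add, map_sum] at this
  rw [this]
  congr 1
  exact Finset.sum_congr rfl fun j _ => by split_ifs <;> simp

omit [MulAction F X] [T2Space X] in
theorem sm_image2 (𝒜 ℬ : Set (Set X)) (n : ℕ) :
    (Sm (image2 (· ∩ ·) 𝒜 ℬ)).S n = ((Sm 𝒜).inf (Sm ℬ)).S n := by
  ext τ
  constructor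
  · rintro ⟨_, ⟨A, hA, B, hB, rfl⟩, h⟩
    exact ⟨⟨A, hA, h.trans inter_subset_left⟩, B, hB, h.trans inter_subset_right⟩
  · rintro ⟨⟨A, hA, h⟩, B, hB, h'⟩
    exact ⟨_, ⟨A, hA, B, hB, rfl⟩, subset_inter h h'⟩

/-- the same for walls which are only `cv`-small and an open family `𝒵` of zones which covers the vertex region
such that every window lies in one zone -/
theorem exists_vz (he : ∀ j, e j = if t j then st v h j else rev (st v h j))
    (hw : ∀ j, Wr O N.cv (N.s (e j)) N.r (a j) (b j) R (σ j)) (hε : 0 ≤ ε) (ha : ∀ j, ε ≤ a j)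
    (hb : ∀ j, b j ≤ 1 - ε) (hB : N.Big ε R') (h0 : R₀ ≤ R') (h1 : R' ≤ R) {𝒵 : Set (Set X)}
    (hZ : ∀ U ∈ 𝒵, IsOpen U) (hZ' : vreg N v h t a b ⊆ ⋃₀ 𝒵)
    (hZw : ∀ j, ∃ U ∈ 𝒵, win (N.s (e j)) (a j) (b j) ⊆ U) (hs : ∀ j, σ j ∈ (Sm N.cv).ch k 3) (hC : ε ≤ C)
    {Q : Set X} (hQ : IsCompact Q) (hQR : ∀ x ∈ Q, N.r x ≤ R) :
    ∃ ρ ∈ ((N.Sb (vreg N v h t a b)).inf (Sm 𝒵)).ch k 4, ∃ c ∈ (N.Pv v h ε R₀).ch k 3,
      c ∈ (((N.Sb (vreg N v h t a b \ Q)).inf ((On (hi N.r R)).sup (Sm (N.Dv v h C)))).inf (Sm 𝒵)).ch k 3 ∧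
        (bd k ρ = c + ∑ j, if t j then σ j else -σ j) ∧
        bd k c + ∑ j, (if t j then bd k (σ j) else -bd k (σ j)) = 0 ∧
        O.Fund (Q ∩ vinn N v h t a b) ρ := by
  have q := sm_image2 𝒵 N.cv
  obtain ⟨ρ, g1, c, g2, g3, g4⟩ := exists_vt N (𝒱 := image2 (· ∩ ·) 𝒵 N.cv) he hw hε ha hb hB h0 h1
    (by rintro _ ⟨A, hA, B, hB, rfl⟩; exact (hZ A hA).inter (N.cv_open B hB))
    (fun x hx => by
      obtain ⟨A, hA, a1⟩ := hZ' hx
      obtain ⟨B, hB, b1⟩ := N.cv_cover (mem_univ x)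
      exact ⟨_, ⟨A, hA, B, hB, rfl⟩, a1, b1⟩)
    (fun n τ hτ => (q n ▸ hτ).2)
    (fun j τ hτ => by
      obtain ⟨U, u1, u2⟩ := hZw j
      exact q 3 ▸ ⟨⟨U, u1, (((hw j).mem N.cv_open N.cv_cover).1 hτ).trans u2⟩, hs j hτ⟩) hC hQ hQR
  exact ⟨ρ, fun τ hτ => ⟨⟨(g1 hτ).1, (q 4 ▸ (g1 hτ).2).2⟩, (q 4 ▸ (g1 hτ).2).1⟩, c, g2,
    fun τ hτ => ⟨⟨⟨(g3 hτ).1.1, (q 3 ▸ (g3 hτ).2).2⟩, (g3 hτ).1.2⟩, (q 3 ▸ (g3 hτ).2).1⟩, g4⟩

end Crest.Agent.N255.Vc

end
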